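import Vale.Agent.H5.P355.N5
import Vale.Agent.H22.P355.N4

/-! # P355: unconditional forms of N3, N5, N6 -/

namespace Vale.Agent.H5.P355

open scoped ComplexConjugate IntermediateField
open Vale.Agent.H28.P355

theorem norm_ne_full (p m k : ℕ) (hp : p.Prime) (hk : 0 < k) (hm : m ∣ p ^ k + 1) (ζ : ℂ)
    (hζ : ζ ^ m = 1) (D : ℕ) (hD : Odd (padicValNat p D)) (z : ℂ) (hz : z ∈ ℚ⟮ζ⟯) :
    z * conj z ≠ (D : ℂ) :=
  N3.norm_ne (fun p hp j P => H22.P355.frob p hp j P) p m k hp hk hm ζ hζ D hD z hz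

theorem four_dvd_full (m : ℕ) (hm : 0 < m) (z : ℂ) (hz : z ^ m = 1)
    (hI : Complex.I ∈ ℚ⟮z⟯) : 4 ∣ m :=
  four_dvd (fun m hm ζ hζ => H22.P355.I_not_mem m hm ζ hζ) m hm z hz hI

theorem no_six_full (m : ℕ) (z : ℂ) (hz : z ^ m = 1)
    (h : (∃ k, 0 < k ∧ m ∣ 2 * (2 ^ k + 1)) ∨ (∃ k, 0 < k ∧ m ∣ 3 ^ k + 1)) (x : ℂ)
    (hx : x ∈ ℚ⟮z⟯) : x * conj x ≠ 6 :=
  no_six (fun p hp j P => H22.P355.frob p hp j P) m z hz h x hx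

end Vale.Agent.H5.P355
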