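import Vale.Agent.H28.P355.N3

/-! # P355: rows N5, N6 -/

namespace Vale.Agent.H5.P355

open scoped ComplexConjugate IntermediateField
open Vale.Agent.H28.P355

/-- Row N4 as a hypothesis -/
def INotMem : Prop := ∀ (m : ℕ) (_ : Odd m) (ζ : ℂ) (_ : ζ ^ m = 1), Complex.I ∉ ℚ⟮ζ⟯

theorem adjoin_le_neg (z : ℂ) : ℚ⟮z⟯ ≤ ℚ⟮-z⟯ := by
  rw [IntermediateField.adjoin_simple_le_iff]
  have h := neg_mem (IntermediateField.mem_adjoin_simple_self ℚ (-z))
  rwa [neg_neg] at h

theorem four_dvd (hN4 : INotMem) (m : ℕ) (_hm : 0 < m) (z : ℂ) (hz : z ^ m = 1)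
    (hI : Complex.I ∈ ℚ⟮z⟯) : 4 ∣ m := by
  rcases Nat.even_or_odd m with he | ho
  · obtain ⟨m', hm'⟩ := he
    rcases Nat.even_or_odd m' with he' | ho'
    · obtain ⟨t, ht⟩ := he'
      exact ⟨t, by omega⟩
    · exfalso
      have h1 : (z ^ m') ^ 2 = 1 := by
        rw [← pow_mul, show m' * 2 = m by omega, hz]
      rcases sq_eq_one_iff.1 h1 with h2 | h2
      · exact hN4 m' ho' z h2 hI
      · refine hN4 m' ho' (-z) ?_ (adjoin_le_neg z hI)
        rw [ho'.neg_pow, h2, neg_neg]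
  · exact absurd hI (hN4 m ho z hz)

theorem no_six (hfrob : N3.Frob) (m : ℕ) (z : ℂ) (hz : z ^ m = 1)
    (h : (∃ k, 0 < k ∧ m ∣ 2 * (2 ^ k + 1)) ∨ (∃ k, 0 < k ∧ m ∣ 3 ^ k + 1)) (x : ℂ)
    (hx : x ∈ ℚ⟮z⟯) : x * conj x ≠ 6 := by
  rcases h with ⟨k, hk, hm⟩ | ⟨k, hk, hm⟩
  · have h0 : (z ^ (2 ^ k + 1)) ^ 2 = 1 := by
      obtain ⟨c, hc⟩ := hm
      rw [← pow_mul, mul_comm, hc, pow_mul, hz, one_pow]
    have hodd : Odd (2 ^ k + 1) := by
      have : Even (2 ^ k) := (Nat.even_pow' hk.ne').2 even_two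
      exact this.add_one
    have hD : Odd (padicValNat 2 6) := by
      have : padicValNat 2 6 = 1 := by
        rw [show (6 : ℕ) = 2 * 3 by norm_num, padicValNat.mul (by norm_num) (by norm_num)]
        rw [padicValNat.self (by norm_num), padicValNat.eq_zero_of_not_dvd (by norm_num)]
      rw [this]; exact odd_one
    rcases sq_eq_one_iff.1 h0 with h2 | h2
    · have := N3.norm_ne hfrob 2 (2 ^ k + 1) k Nat.prime_two hk (dvd_refl _) z h2 6 hD x hx
      simpa using this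
    · have h3 : (-z) ^ (2 ^ k + 1) = 1 := by rw [hodd.neg_pow, h2, neg_neg]
      have := N3.norm_ne hfrob 2 (2 ^ k + 1) k Nat.prime_two hk (dvd_refl _) (-z) h3 6 hD x
        (adjoin_le_neg z hx)
      simpa using this
  · have hD : Odd (padicValNat 3 6) := by
      have : padicValNat 3 6 = 1 := by
        rw [show (6 : ℕ) = 3 * 2 by norm_num,
          @padicValNat.mul 3 3 2 ⟨Nat.prime_three⟩ (by norm_num) (by norm_num)]
        rw [padicValNat.self (by norm_num), padicValNat.eq_zero_of_not_dvd (by norm_num)]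
      rw [this]; exact odd_one
    have := N3.norm_ne hfrob 3 m k Nat.prime_three hk hm z hz 6 hD x hx
    simpa using this

end Vale.Agent.H5.P355
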